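import Vale.Agent.Lib.P058.Family

open Vale.Agent.Lib.P058

/-- All coordinate permutations of a vector `v ∈ ℝ^n` with exactly one coordinate equal to `c`,
exactly `q ≤ 3` coordinates equal to `b`, and all other coordinates equal to `a`, form a Ramsey
set (the `a, b, c` are arbitrary pairwise distinct reals, `n` is arbitrary). -/
theorem Vale.Agent.Results.P058.A_family.result {n q : ℕ} (hq : q ≤ 3) {a b c : ℝ}
    (hab : a ≠ b) (hac : a ≠ c) (hbc : b ≠ c)
    (v : Fin n → ℝ) (hv : ∀ i, v i = a ∨ v i = b ∨ v i = c)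
    (hc : (Finset.univ.filter (fun i => v i = c)).card = 1)
    (hb : (Finset.univ.filter (fun i => v i = b)).card = q) :
    IsRamseySet (Set.range (fun π : Equiv.Perm (Fin n) =>
      (WithLp.toLp 2 (v ∘ π) : EuclideanSpace ℝ (Fin n)))) :=
  family_ramsey hq hab hac hbc v hv hc hb
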