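import Vale.Agent.Lib.P058.Criterion

open Vale.Agent.Lib.P058

/-- **Word criterion for Ramsey sets.** Let `p` index a finite nonempty set of points of `ℝ^d` and
let `m ≥ 1`. Suppose that for every group `G` and every map `φ : ℝ → G` there is a word
`g₁ φ(x_{i₁}) g₂ φ(x_{i₂}) ⋯ g_k φ(x_{i_k})` with constants `g_j ∈ G`, using every coordinate slot
exactly `m` times, whose value in `G` is the same at all points `x` of the set. Then the set is
Ramsey. -/
theorem Vale.Agent.Results.P058.B_word.result {d : ℕ} {X : Type*} [Finite X] [Nonempty X]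
    (p : X → Fin d → ℝ) (m : ℕ) (hm : 0 < m)
    (H : ∀ (G : Type) [Group G] (φ : ℝ → G), ∃ w : List (G × Fin d),
      (∀ i, (w.map Prod.snd).count i = m) ∧ ∀ x x', wordEval φ (p x) w = wordEval φ (p x') w) :
    IsRamseySet (Set.range (fun x => (WithLp.toLp 2 (p x) : EuclideanSpace ℝ (Fin d)))) :=
  ramsey_of_word p m hm H
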